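import Vale.Agent.P270.H766.GB.Iface

/-!
# Two nef line bundles: frames of the product
-/

open scoped Manifold ContDiff Topology ComplexConjugate ComplexOrder Matrix
open Filter Set
open Vale.Agent.P272.K Vale.Agent.P285.H281 Vale.Agent.P284.H248 Vale.Agent.P285.TM
open Vale.Agent.P285.H281.M
open Vale.Agent.P285.H591.TM
open Vale.Agent.P270.H766.GB

noncomputable section

namespace Vale.Agent.P270.H292.GB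

section
variable {n k ν : ℕ} {σ : Fin n ≃ Fin k ⊕ Fin ν} {Y : Type} [TopologicalSpace Y]
  [ChartedSpace (Cm ν) Y] {Γ : Type} [Group Γ] {D : Dat (Vk k) ν Y Γ} {X : Type}
  [TopologicalSpace X] [ChartedSpace (Cm n) X]
  {χ : Chart n X → Cm n → Matrix (Fin n) (Fin n) ℂ} {M : Md σ D χ} {L₁ L₂ : LineBundle n X}

/-- frames of `L₁^{b₁} ⊗ L₂^{b₂}` -/
theorem frm_mul2 {ψ₁ : L₁.ι → X → ℝ} {ψ₂ : L₂.ι → X → ℝ} {c : Chart ν Y} {B₁ B₂ B : Set (Cm ν)}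
    {τ₁ : L₁.ι → Cm n → ℂ} {τ₂ : L₂.ι → Cm n → ℂ} {q₁ q₂ : Cm n → ℝ}
    (h₁ : Frm M L₁ ψ₁ c B₁ τ₁ q₁) (h₂ : Frm M L₂ ψ₂ c B₂ τ₂ q₂) (hB : IsOpen B)
    (s₁ : B ⊆ B₁) (s₂ : B ⊆ B₂) (b₁ b₂ : ℕ) :
    Frm M (lb2 L₁ L₂ b₁ b₂) (psi2 ψ₁ ψ₂ b₁ b₂) c B
      (fun (i : L₁.ι × L₂.ι) u => τ₁ i.1 u ^ b₁ * τ₂ i.2 u ^ b₂)
      (fun u => b₁ * q₁ u + b₂ * q₂ u) where
  mem := h₁.mem
  isOpen := hB
  sub := s₁.trans h₁.sub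
  holo i u hu hi := ((h₁.holo i.1 u (s₁ hu) hi.1).pow b₁).mul ((h₂.holo i.2 u (s₂ hu) hi.2).pow b₂)
  ne i u hu hi := mul_ne_zero (pow_ne_zero _ (h₁.ne i.1 u (s₁ hu) hi.1))
    (pow_ne_zero _ (h₂.ne i.2 u (s₂ hu) hi.2))
  change i j u hu hi hj := by
    show τ₁ i.1 u ^ b₁ * τ₂ i.2 u ^ b₂ = (L₁.g i.1 j.1 (M.J c u) ^ b₁ *
      L₂.g i.2 j.2 (M.J c u) ^ b₂) * (τ₁ j.1 u ^ b₁ * τ₂ j.2 u ^ b₂)
    rw [h₁.change i.1 j.1 u (s₁ hu) hi.1 hj.1, h₂.change i.2 j.2 u (s₂ hu) hi.2 hj.2, mul_pow,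
      mul_pow]
    ring
  norm i u hu hi := by
    have e1 := h₁.norm i.1 u (s₁ hu) hi.1
    have e2 := h₂.norm i.2 u (s₂ hu) hi.2
    show ‖τ₁ i.1 u ^ b₁ * τ₂ i.2 u ^ b₂‖ ^ 2 *
      Real.exp (-(b₁ * ψ₁ i.1 (M.J c u) + b₂ * ψ₂ i.2 (M.J c u))) =
      Real.exp (-(b₁ * q₁ u + b₂ * q₂ u))
    have e3 : ∀ (b : ℕ) (x : ℝ), Real.exp (-(b * x)) = Real.exp (-x) ^ b := by
      intro b x
      rw [← Real.exp_nat_mul]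
      congr 1
      ring
    rw [neg_add, neg_add, Real.exp_add, Real.exp_add, e3, e3, e3, e3, ← e1, ← e2,
      norm_mul, norm_pow, norm_pow]
    ring

lemma exists_rad {N₁ N₂ : Submodule ℂ (Vk k)} (F₁ : FS M L₁ N₁) (F₂ : FS M L₂ N₂) (y : Y) :
    ∃ r : ℝ, 0 < r ∧ Metric.ball (chartAt (Cm ν) y y) r ⊆ F₁.B y ∩ F₂.B y :=
  Metric.isOpen_iff.1 ((F₁.frm y).isOpen.inter (F₂.frm y).isOpen) _ ⟨F₁.memB y, F₂.memB y⟩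

/-- the frames of `L₁^{b₁} ⊗ L₂^{b₂}` from the frames of `L₁`, `L₂` -/
def mul2 {N N₁ N₂ : Submodule ℂ (Vk k)} (F₁ : FS M L₁ N₁) (F₂ : FS M L₂ N₂) (h₁ : N ≤ N₁)
    (h₂ : N ≤ N₂) (b₁ b₂ : ℕ) : FS M (lb2 L₁ L₂ b₁ b₂) N where
  Ψ := psi2 F₁.Ψ F₂.Ψ b₁ b₂
  B y := Metric.ball (chartAt (Cm ν) y y) (exists_rad F₁ F₂ y).choose
  T y := fun (i : L₁.ι × L₂.ι) u => F₁.T y i.1 u ^ b₁ * F₂.T y i.2 u ^ b₂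
  Q y := fun u => b₁ * F₁.Q y u + b₂ * F₂.Q y u
  memB y := Metric.mem_ball_self (exists_rad F₁ F₂ y).choose_spec.1
  pre y := (convex_ball _ _).isPreconnected
  frm y := frm_mul2 (F₁.frm y) (F₂.frm y) Metric.isOpen_ball
    ((exists_rad F₁ F₂ y).choose_spec.2.trans inter_subset_left)
    ((exists_rad F₁ F₂ y).choose_spec.2.trans inter_subset_right) b₁ b₂
  inv y u hu v hv := by
    have e := (exists_rad F₁ F₂ y).choose_spec.2 hu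
    show b₁ * F₁.Q y (u + mc σ v 0) + b₂ * F₂.Q y (u + mc σ v 0) = b₁ * F₁.Q y u + b₂ * F₂.Q y u
    rw [F₁.inv y u e.1 v (h₁ hv), F₂.inv y u e.2 v (h₂ hv)]

lemma mul2_W {N N₁ N₂ : Submodule ℂ (Vk k)} (F₁ : FS M L₁ N₁) (F₂ : FS M L₂ N₂) (h₁ : N ≤ N₁)
    (h₂ : N ≤ N₂) (b₁ b₂ : ℕ) (y : Y) :
    (mul2 F₁ F₂ h₁ h₂ b₁ b₂).W y ⊆ F₁.W y ∩ F₂.W y := by
  rintro x ⟨hx, hx'⟩
  have e := (exists_rad F₁ F₂ y).choose_spec.2 hx'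
  exact ⟨⟨hx, e.1⟩, ⟨hx, e.2⟩⟩

end

/-- **G2** -/
theorem g2 : G2 := by
  intro n k ν σ Y _ _ _ _ _ Γ _ D X _ _ _ _ _ _ χ M L₁ L₂ N N₁ N₂ F₁ F₂ h₁ h₂
  refine ⟨fun b₁ b₂ => mul2 F₁ F₂ h₁ h₂ b₁ b₂, fun _ _ => rfl,
    fun b₁ b₂ y => mul2_W F₁ F₂ h₁ h₂ b₁ b₂ y, ?_⟩
  intro b₁ b₂ l hl y a ha
  have hla : D.h l a.2 ∈ (mul2 F₁ F₂ h₁ h₂ b₁ b₂).W y := by rw [hl.2.1]; exact ha
  have hi : M.p a ∈ (lb2 L₁ L₂ b₁ b₂).U (idx L₁ (M.p a), idx L₂ (M.p a)) :=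
    ⟨mem_idx L₁ _, mem_idx L₂ _⟩
  rw [FS.rat_eq (F := mul2 F₁ F₂ h₁ h₂ b₁ b₂) (i := (idx L₁ (M.p a), idx L₂ (M.p a))) ha hla hi]
  show (F₁.val y (idx L₁ (M.p a)) (act D l a) ^ b₁ * F₂.val y (idx L₂ (M.p a)) (act D l a) ^ b₂) /
      (F₁.val y (idx L₁ (M.p a)) a ^ b₁ * F₂.val y (idx L₂ (M.p a)) a ^ b₂) =
    (F₁.val y (idx L₁ (M.p a)) (act D l a) / F₁.val y (idx L₁ (M.p a)) a) ^ b₁ *
      (F₂.val y (idx L₂ (M.p a)) (act D l a) / F₂.val y (idx L₂ (M.p a)) a) ^ b₂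
  rw [div_pow, div_pow, div_mul_div_comm]

end Vale.Agent.P270.H292.GB
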